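import Vale.Agent.P011Z.Cl.Lie6
import Vale.Agent.P011Z.Cl.Dat

/-!
Classification of the forms: block Gen, the double six and the two root elements.
-/

open Matrix Module

noncomputable section

namespace Vale.Agent.P011Z.Cl.Genx

open Vale.Agent.P011.D4 Vale.Agent.P011.D4.Oct Vale.Agent.P011.E6 Vale.Agent.P011.E6.Alb
open Lie6x

variable {D : ED} {σ : Gq} {f : J → J}

theorem ep_skew (x y : J) : tf (EpL x) y = -tf x (EpL y) := by
  rw [ep_apply, ep_apply, tf_six, tf_six x]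
  simp [up_iu, om_iu, um_iu]

theorem em_skew (x y : J) : tf (EmL x) y = -tf x (EmL y) := by
  rw [em_apply, em_apply, tf_six, tf_six x]
  simp [up_iv, om_iv, um_iv]

theorem smul_skew {F : EJ} (h : ∀ x y, tf (F x) y = -tf x (F y)) (t : Om) (x y : J) :
    tf ((t • F) x) y = -tf x ((t • F) y) := by
  rw [LinearMap.smul_apply, LinearMap.smul_apply, tf_smul_left, tf_smul_right, h, mul_neg]

/-- For a skew image the two cases of the action agree. -/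
theorem th_skew {E F : EJ} (hF : ∀ x y, tf (F x) y = -tf x (F y)) :
    (D.Th σ E F → ∀ y, F (D.f σ y) = D.f σ (E y)) ∧
      ((∀ y, F (D.f σ y) = D.f σ (E y)) → D.Th σ E F) := by
  refine ⟨fun h y => ?_, fun h => ⟨fun _ => h, fun _ x y => by rw [hF, h]⟩⟩
  by_cases hK : σ ∈ D.K
  · exact h.1 hK y
  · refine eq_of_tf fun x => ?_
    have h1 := h.2 hK x y
    rw [hF, neg_inj] at h1
    rw [tf_comm, h1, tf_comm]

theorem pr_tf (a : Fin 3) (x y : J) : tf (pr a x) y = tf x (pr a.rev y) := by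
  have h0 : ∀ x y, tf (pr 0 x) y = tf x (pr 2 y) := fun x y => by
    change tf (EpL (EmL x)) y = tf x (EmL (EpL y))
    rw [ep_skew, em_skew, neg_neg]
  have h2 : ∀ x y, tf (pr 2 x) y = tf x (pr 0 y) := fun x y => by rw [tf_comm, ← h0, tf_comm]
  have h1 : tf (pr 1 x) y = tf x (pr 1 y) := by
    rw [pr1_apply, pr1_apply, ← pr0_apply, ← pr0_apply, ← pr2_apply, ← pr2_apply, tf_sub_left,
      tf_sub_left, tf_sub_right, tf_sub_right, h0, h2]
    ring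
  fin_cases a
  exacts [h0 x y, h1, h2 x y]

theorem wt_rev : ∀ a b : Fin 3, wt b.rev - wt a.rev = wt a - wt b := by decide

theorem pr_up6 (hf : Semi σ f) (h : Up6 f) (a : Fin 3) (x : J) : pr a (f x) = f (pr a x) := by
  have a0 := h.p (pr 0 x) (by rw [pr0_apply, om_iu]) (by rw [pr0_apply, um_iu])
  have a1 := h.o (pr 1 x) (up_pr1 x) (um_pr1 x)
  have a2 := h.m (pr 2 x) (by rw [pr2_apply, om_iv]) (by rw [pr2_apply, up_iv])
  have e : f x = f (pr 0 x) + f (pr 1 x) + f (pr 2 x) := by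
    rw [← hf.add, ← hf.add, sum_pr_apply]
  have h0 : pr 0 (f x) = f (pr 0 x) := by
    rw [pr0_apply, e, up_add, up_add, a1.1, a2.2, add_zero, add_zero, ← eq_iu a0.1 a0.2]
  have h2 : pr 2 (f x) = f (pr 2 x) := by
    rw [pr2_apply, e, um_add, um_add, a0.2, a1.2, add_zero, zero_add, ← eq_iv a2.1 a2.2]
  have h1 : pr 1 (f x) = f (pr 1 x) := by
    have h3 := sum_pr_apply (f x)
    rw [h0, h2] at h3
    exact add_left_cancel (add_right_cancel (h3.trans e))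
  fin_cases a
  exacts [h0, h1, h2]

theorem blk_th (hf : Semi σ (D.f σ)) (h : Up6 (D.f σ)) {X Y : EJ} (hY : D.Th σ X Y) {s : Set ℤ}
    (hX : X ∈ blk s) : Y ∈ blk s := by
  intro a b hab
  refine LinearMap.ext fun x => ?_
  change pr a (Y (pr b x)) = 0
  by_cases hK : σ ∈ D.K
  · obtain ⟨u, rfl⟩ := hf.bij.2 x
    rw [pr_up6 hf h, hY.1 hK, pr_up6 hf h, ent hX hab, hf.zero]
  · refine eq_zero_of_tf fun y => ?_
    obtain ⟨u, rfl⟩ := hf.bij.2 y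
    rw [pr_tf, pr_up6 hf h, hY.2 hK, pr_tf, pr_up6 hf h, ent hX (by rwa [wt_rev]), hf.zero,
      tf_zero_right, neg_zero]

theorem np_th (h : D.OK) (hσ : σ ∈ D.G) (hu : Up6 (D.f σ)) {X : EJ} (hX : Np X) :
    Np (D.th σ X) :=
  np_iff.2 ⟨h.th_lie hσ hX.lie, blk_th (h.sim σ hσ).toSemi hu (h.th hσ X) (np_iff.1 hX).2⟩

theorem em_th (h : D.OK) (hσ : σ ∈ D.G) (hu : Up6 (D.f σ)) : ∃ a : Om, D.th σ EmL = a • EmL := by
  have h1 := blk_th (h.sim σ hσ).toSemi hu (h.th hσ EmL) em_blk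
  refine lie_eq_em (h.th_lie hσ lie_em) (fun x hx => ?_) fun x =>
    ⟨om_of_pr (row h1 (by decide) x), up_of_pr (row h1 (by decide) x)⟩
  rw [← sum_pr_apply x, map_add, map_add, col h1 (b := 1) (by decide), col h1 (b := 2) (by decide),
    pr0_apply, hx, map_zero, map_zero, add_zero, add_zero]

theorem em_ne : EmL ≠ 0 := fun h => by
  have h1 := rank_em.1
  rw [h, LinearMap.range_zero, finrank_bot] at h1
  exact absurd h1 (by decide)

theorem ker_ep {y : J} {b : Om} (hb : b ≠ 0) : (b • EpL) y = 0 ↔ um y = 0 := by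
  rw [LinearMap.smul_apply, smul_eq_zero_iff_right hb, ep_apply, map_eq_zero_iff _ iu_inj]

theorem ker_em {y : J} {b : Om} (hb : b ≠ 0) : (b • EmL) y = 0 ↔ up y = 0 := by
  rw [LinearMap.smul_apply, smul_eq_zero_iff_right hb, em_apply, map_eq_zero_iff _ iv_inj]

theorem im_ep {y : J} {b : Om} (hb : b ≠ 0) :
    (∃ x, (b • EpL) x = y) ↔ om6 y = 0 ∧ um y = 0 := by
  constructor
  · rintro ⟨x, rfl⟩
    rw [LinearMap.smul_apply, om_smul, um_smul, ep_apply, om_iu, um_iu, smul_zero, smul_zero]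
    exact ⟨rfl, rfl⟩
  · rintro ⟨h1, h2⟩
    refine ⟨b⁻¹ • iv (up y), ?_⟩
    rw [map_smul, LinearMap.smul_apply, smul_smul, inv_mul_cancel₀ hb, one_smul, ep_apply, um_iv,
      ← eq_iu h1 h2]

theorem im_em {y : J} {b : Om} (hb : b ≠ 0) :
    (∃ x, (b • EmL) x = y) ↔ om6 y = 0 ∧ up y = 0 := by
  constructor
  · rintro ⟨x, rfl⟩
    rw [LinearMap.smul_apply, om_smul, up_smul, em_apply, om_iv, up_iv, smul_zero, smul_zero]
    exact ⟨rfl, rfl⟩
  · rintro ⟨h1, h2⟩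
    refine ⟨b⁻¹ • iu (um y), ?_⟩
    rw [map_smul, LinearMap.smul_apply, smul_smul, inv_mul_cancel₀ hb, one_smul, em_apply, up_iu,
      ← eq_iv h1 h2]

theorem ker_of (hf : Semi σ f) {E F : EJ} (h : ∀ y, F (f y) = f (E y)) {y : J} (hy : E y = 0) :
    F (f y) = 0 := by rw [h, hy, hf.zero]

theorem im_of {E F : EJ} (h : ∀ y, F (f y) = f (E y)) {y : J} (hy : ∃ x, E x = y) :
    ∃ x, F x = f y := hy.elim fun x hx => ⟨f x, by rw [h, hx]⟩

theorem up6_of (hf : Semi σ f) {t b : Om} (ht : t ≠ 0) (hb : b ≠ 0)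
    (h1 : ∀ y, (t • EmL) (f y) = f ((t • EmL) y)) (h2 : ∀ y, (b • EpL) (f y) = f ((b • EpL) y)) :
    Up6 f :=
  ⟨fun _ a c => (im_ep hb).1 (im_of h2 ((im_ep hb).2 ⟨a, c⟩)),
    fun _ a c => (im_em ht).1 (im_of h1 ((im_em ht).2 ⟨a, c⟩)),
    fun _ a c => ⟨(ker_em ht).1 (ker_of hf h1 ((ker_em ht).2 a)),
      (ker_ep hb).1 (ker_of hf h2 ((ker_ep hb).2 c))⟩⟩

theorem sw6_of (hf : Semi σ f) {t b : Om} (ht : t ≠ 0) (hb : b ≠ 0)
    (h1 : ∀ y, (b • EpL) (f y) = f ((t • EmL) y)) (h2 : ∀ y, (t • EmL) (f y) = f ((b • EpL) y)) :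
    Sw6 f :=
  ⟨fun _ a c => (im_em ht).1 (im_of h2 ((im_ep hb).2 ⟨a, c⟩)),
    fun _ a c => (im_ep hb).1 (im_of h1 ((im_em ht).2 ⟨a, c⟩)),
    fun _ a c => ⟨(ker_em ht).1 (ker_of hf h2 ((ker_ep hb).2 c)),
      (ker_ep hb).1 (ker_of hf h1 ((ker_em ht).2 a))⟩⟩

theorem re_norm {ι : Om →+* ℂ} {γ : Gq} (h : Cj ι γ) {z : Om} (hz : z ≠ 0) (w : Om) :
    0 < (ι (z * γ z * w)).re ↔ 0 < (ι w).re := by
  rw [map_mul, map_mul, h, Complex.mul_conj, Complex.re_ofReal_mul]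
  exact mul_pos_iff_of_pos_left (Complex.normSq_pos.2 ((map_ne_zero ι).2 hz))

/-- The ratio of the two root elements. -/
theorem ratio {B : Matrix (Fin 2) (Fin 2) Om} {P : Matrix I6 I6 Om} {μ t b : Om} (hμ : μ ≠ 0)
    (hd : μ ^ 2 = B.det * P.det) (h0 : B 0 0 = 0) (h1 : B 1 1 = 0)
    (h : ∀ y, (b • EpL) (gl6 σ B P μ y) = gl6 σ B P μ ((t • EmL) y)) :
    -(t * b) = t * σ t * (B.det / B 1 0 ^ 2) := by
  have hs := (gl6_props (σ := σ) hμ hd).1.toSemi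
  obtain ⟨y, hy⟩ := hs.bij.2 (iv 1)
  have hB := (Pfx.dets hμ hd).1
  rw [det_fin_two, h0, zero_mul, zero_sub] at hB ⊢
  have h2 : B 1 0 ≠ 0 := fun h3 => hB (by rw [h3, mul_zero, neg_zero])
  have h3 := congrArg up (h y)
  have h4 := congrArg um hy
  rw [LinearMap.smul_apply, LinearMap.smul_apply, hs.smul, up_smul, up_smul, ep_apply, up_iu, hy,
    um_iv, (six_gl6 _).1, h0, zero_smul, zero_add, em_apply, um_iv, mulVec_smul] at h3
  rw [um_iv, (six_gl6 _).2.2, h1, zero_smul, add_zero, mulVec_smul] at h4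
  have h5 := congrFun h3 (0, 0)
  have h6 := congrFun h4 (0, 0)
  simp only [Pi.smul_apply, smul_eq_mul, Pi.one_apply, mul_one] at h5 h6
  have h7 : B 1 0 * b = σ t * B 0 1 := by
    rw [h5]
    linear_combination (σ t * B 0 1) * h6
  field_simp
  linear_combination (-t) * h7

/-- A stable pair of root elements gives the normal form. -/
theorem s6_of (h : D.OK) {t b : Om} (ht : t ≠ 0) (hb : b ≠ 0) {H : Subgroup Gq}
    (h1 : ∀ σ ∈ D.G, σ ∈ H → D.th σ (t • EmL) = t • EmL ∧ D.th σ (b • EpL) = b • EpL)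
    (h2 : ∀ σ ∈ D.G, σ ∉ H → D.th σ (t • EmL) = b • EpL ∧ D.th σ (b • EpL) = t • EmL)
    (h3 : ∀ ι γ, Cj ι γ → γ ∈ D.G → γ ∉ D.K → γ ∉ H ∧ 0 < (ι (-(t * b))).re) :
    ∃ B P μ, D.S6 B P μ := by
  have sm := smul_skew em_skew t
  have sp := smul_skew ep_skew b
  have k : ∀ σ ∈ D.G, ∀ {E F : EJ}, (∀ x y, tf (F x) y = -tf x (F y)) → D.th σ E = F →
      ∀ y, F (D.f σ y) = D.f σ (E y) := fun σ hσ E F hF e =>
    (th_skew hF).1 (e ▸ h.th hσ E)
  have key : ∀ σ ∈ D.G, ∃ (B : Matrix (Fin 2) (Fin 2) Om) (P : Matrix I6 I6 Om) (μ : Om),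
      μ ≠ 0 ∧ μ ^ 2 = B.det * P.det ∧ (∀ x, D.f σ x = gl6 σ B P μ x) ∧
        (σ ∉ H → B 0 0 = 0 ∧ B 1 1 = 0) := by
    intro σ hσ
    have hs := h.sim σ hσ
    by_cases hH : σ ∈ H
    · obtain ⟨B, P, μ, a1, a2, -, -, a5⟩ := dst_up hs (up6_of hs.toSemi ht hb
        (k σ hσ sm (h1 σ hσ hH).1) (k σ hσ sp (h1 σ hσ hH).2))
      exact ⟨B, P, μ, a1, a2, a5, fun h4 => absurd hH h4⟩
    · obtain ⟨B, P, μ, a1, a2, a3, a4, a5⟩ := dst_sw hs (sw6_of hs.toSemi ht hb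
        (k σ hσ sp (h2 σ hσ hH).1) (k σ hσ sm (h2 σ hσ hH).2))
      exact ⟨B, P, μ, a1, a2, a5, fun _ => ⟨a3, a4⟩⟩
  choose! B P μ a1 a2 a3 a4 using key
  refine ⟨B, P, μ, a1, a2, a3, fun ι γ hγ hG hK => ?_⟩
  obtain ⟨hH, hp⟩ := h3 ι γ hγ hG hK
  have h4 := k γ hG sp (h2 γ hG hH).1
  simp only [a3 γ hG] at h4
  rwa [ratio (a1 γ hG) (a2 γ hG) (a4 γ hG hH).1 (a4 γ hG hH).2 h4, re_norm hγ ht] at hp

end Vale.Agent.P011Z.Cl.Genx

end
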